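import Vale.Agent.P352.BW.L.Spec

open MeasureTheory Filter Topology

namespace Vale.Agent.P352.BW

open GF H246 H496 H755 H15
open UniformSpace (Completion)

noncomputable section

variable {D : Type*} [NormedAddCommGroup D] [InnerProductSpace ℂ D]

/-- The operator `Z` multiplies the vectors `B f Ω` by a phase. -/
def Phs (Q : Theory D) (Z : Completion D → Completion D) (B : Fld D) : Prop :=
  ∃ ζ : ℂ, ‖ζ‖ = 1 ∧ ∀ f, GF.IsTest f →
    Z ((B f Q.vac : D) : Completion D) = ζ • ((B f Q.vac : D) : Completion D)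

/-- The field `B` has a real scaling dimension, and the operator `Z` multiplies the vectors `B f Ω`
by a phase and the vectors `(B f)* Ω` by a phase. -/
def ZF (Q : Theory D) (Z : Completion D → Completion D) (B : Fld D) : Prop :=
  ∃ (B' : Fld D) (d : ℝ), L.Fz Q d B ∧ L.Fz Q d B' ∧ Phs Q Z B ∧ Phs Q Z B' ∧
    ∀ f v w, GF.IsTest f → inner ℂ (B f v) w = inner ℂ v (B' (GF.bar f) w)

/-- **Locality of opposite light cones, up to a unitary operator.** There is a unitary operator `Z`
such that `Z X Z⁻¹` commutes with the algebra of the forward light cone, for `X` in the algebra of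
the backward light cone. `Z` fixes the vacuum, and multiplies the vectors `B f Ω`, `B` in a
generating class of fields, by a phase that depends on `B` only. -/
def HuyZ (Q : Theory D) (𝒜 : Set V → VonNeumannAlgebra (Completion D)) : Prop :=
  ∃ Z : Completion D ≃ₗᵢ[ℂ] Completion D, Z (om Q) = om Q ∧
    (∀ X ∈ 𝒜 L.Bk, ∃ Y ∈ (𝒜 Fc).commutant, ∀ z, Y (Z z) = Z (X z)) ∧
    ∀ S : Submodule ℂ D, Q.vac ∈ S →
      (∀ B f v, ZF Q Z B → GF.IsTest f → v ∈ S → B f v ∈ S) → Dense (S : Set D)

end

end Vale.Agent.P352.BW
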