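import Vale.Agent.P352.BW.H210.Zg
import Vale.Agent.P352.BW.L.O

/-!
# P352: opposite light cones that commute up to a unitary operator (helper210)
-/

set_option linter.all false

noncomputable section

namespace Vale.Agent.P352.BW.H210

open UniformSpace (Completion)
open GF H246 H496 H755 H15

variable {D : Type*} [NormedAddCommGroup D] [InnerProductSpace ℂ D] {Q : Theory D}
  {A : (V → V) → D → D} {𝒜 : Set V → VonNeumannAlgebra (Completion D)}

/-- **If the backward light cone, conjugated by a unitary operator that acts by phases on the
one-field vectors, commutes with the forward light cone, then the dilations are the modular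
unitaries of the forward light cone.** -/
theorem lc (N : LNm Q A 𝒜) (hz : HuyZ Q 𝒜) :
    ∃ J, IsMod (𝒜 Fc) (om Q)
      (fun t z => Ue Q (Real.exp (-(2 * Real.pi * t))) GF.one 0 z) J :=
  lc_z L.o N hz

end Vale.Agent.P352.BW.H210

end
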