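import Vale.Agent.P352.BW.H210.ZDefs
import Vale.Agent.P352.BW.H649.Lc
import Vale.Agent.P352.BW.H732.Lc.Ph
import Vale.Agent.P352.BW.H118.Prod
import Vale.Agent.P352.BW.Mb
import Vale.Agent.P352.BW.A
import Vale.Agent.P352.BW.T.M
import Vale.Agent.P352.BW.T.N
import Vale.Agent.P352.BW.T.NAd
import Vale.Agent.P352.BW.T.R

/-!
# P352: the modular unitaries of the light cone, for a class of fields (helper210)
-/

set_option linter.all false

noncomputable section

open MeasureTheory Filter Topology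
open scoped ComplexConjugate InnerProductSpace BoundedContinuousFunction

namespace Vale.Agent.P352.BW.H210

open Vale.Agent.P132 (ModData expB jconj exists_modData)
open UniformSpace (Completion)
open GF H246 H496 H755 H15
open Vale.Agent.P352.BW.L (Fz dD dV rf Bk)

variable {D : Type*} [NormedAddCommGroup D] [InnerProductSpace ℂ D] {Q : Theory D}
  {A : (V → V) → D → D} {𝒜 : Set V → VonNeumannAlgebra (Completion D)}

/-! ### the dilations -/

section dil

variable (hU : UStmt Q A)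

include hU

theorem dV_lin (t : ℝ) : ∃ W : Completion D ≃ₗᵢ[ℂ] Completion D, ∀ z, W z = dV Q t z :=
  hU.lin _ _ _ (Real.exp_pos _) isLor_one

theorem dV_coe (t : ℝ) (v : D) : dV Q t (v : Completion D) = (dD Q t v : D) :=
  hU.coe _ _ _ _ (Real.exp_pos _) isLor_one

theorem dV_add (s t : ℝ) (z : Completion D) : dV Q s (dV Q t z) = dV Q (s + t) z := by
  unfold dV
  rw [hU.mul _ _ _ _ _ _ _ (Real.exp_pos _) (Real.exp_pos _) isLor_one isLor_one]
  have e1 : (fun m => sim 1 GF.one 0 (GF.one m)) = GF.one := by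
    funext m
    rw [H26.sim_one0]
  have e2 : sim (Real.exp (-(2 * Real.pi * s))) GF.one 0 0 = 0 := by
    rw [Lc.sim_dil, smul_zero]
  rw [e1, e2, ← Real.exp_add]
  congr 2
  ring

theorem dV_zero (z : Completion D) : dV Q 0 z = z := by
  unfold dV
  rw [mul_zero, neg_zero, Real.exp_zero, Ue_one]

theorem dV_right (t : ℝ) (z : Completion D) : dV Q t (dV Q (-t) z) = z := by
  rw [dV_add hU, add_neg_cancel, dV_zero hU]

theorem dV_left (t : ℝ) (z : Completion D) : dV Q (-t) (dV Q t z) = z := by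
  rw [dV_add hU, neg_add_cancel, dV_zero hU]

theorem dV_vac (t : ℝ) : dV Q t (om Q) = om Q := hU.vac _ _ _ (Real.exp_pos _) isLor_one

theorem dV_smul (t : ℝ) (c : ℂ) (z : Completion D) : dV Q t (c • z) = c • dV Q t z := by
  obtain ⟨W, hW⟩ := dV_lin hU t
  rw [← hW, ← hW, map_smul]

/-- the dilations commute with the modular objects -/
theorem dV_nat {M : VonNeumannAlgebra (Completion D)} (E : ModData M (om Q))
    (hc : ∀ t, ∀ X ∈ M, ∃ Y ∈ M, ∀ z, Y (dV Q t z) = dV Q t (X z)) (t : ℝ) :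
    (∀ F z, dV Q t (E.Th F z) = E.Th F (dV Q t z)) ∧
      ∀ z, dV Q t (E.J z) = E.J (dV Q t z) := by
  obtain ⟨W, hW⟩ := dV_lin hU t
  have h := (T.n : T.NStmt (Completion D)) M (om Q) E W (by rw [hW]; exact dV_vac hU t) ?_ ?_
  · simp only [hW] at h
    exact h
  · intro X hX
    obtain ⟨Y, hY, h1⟩ := hc t X hX
    exact ⟨Y, hY, fun z => by rw [hW, hW]; exact h1 z⟩
  · intro Y hY
    obtain ⟨X, hX, h1⟩ := hc (-t) Y hY
    refine ⟨X, hX, fun z => ?_⟩
    rw [hW, hW]
    have h2 : X z = dV Q (-t) (Y (dV Q t z)) := by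
      have h3 := h1 (dV Q t z)
      rwa [dV_left hU] at h3
    rw [h2, dV_right hU]

end dil

/-! ### one-field vectors -/

/-- the twisted commutant: the vector form of affiliation to `Z⁻¹ M' Z` -/
theorem tw {M N : VonNeumannAlgebra (Completion D)} {Z : Completion D ≃ₗᵢ[ℂ] Completion D}
    (hZ0 : Z (om Q) = om Q)
    (hZ : ∀ X ∈ N, ∃ Y ∈ M.commutant, ∀ z, Y (Z z) = Z (X z))
    {X X' : D → D} (hX : ∀ v w, inner ℂ (X v) w = inner ℂ v (X' w)) (hA : Aff N X) :
    ∀ Y ∈ M, ⟪Z ((X' Q.vac : D) : Completion D), Y (om Q)⟫_ℂ =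
      ⟪star Y (om Q), Z ((X Q.vac : D) : Completion D)⟫_ℂ := by
  intro Y hY
  obtain ⟨X1, hX1, hM⟩ := hA
  have e : X1 = X' := by
    funext w
    refine ext_inner_left ℂ fun v => ?_
    rw [← hX1, ← hX]
  subst e
  set Y1 : Completion D →L[ℂ] Completion D :=
    (Z.symm.toContinuousLinearEquiv : Completion D →L[ℂ] Completion D) ∘L Y ∘L
      (Z.toContinuousLinearEquiv : Completion D →L[ℂ] Completion D) with hY1
  have eY : ∀ z, Y1 z = Z.symm (Y (Z z)) := fun z => rfl
  have hc : Y1 ∈ N.commutant := by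
    rw [VonNeumannAlgebra.mem_commutant_iff]
    intro P hP
    obtain ⟨P1, hP1, hP2⟩ := hZ P hP
    refine ContinuousLinearMap.ext fun z => ?_
    show P (Y1 z) = Y1 (P z)
    rw [eY, eY, ← hP2 z]
    rw [VonNeumannAlgebra.mem_commutant_iff] at hP1
    have h1 : Y (P1 (Z z)) = P1 (Y (Z z)) :=
      congrArg (fun T : Completion D →L[ℂ] Completion D => T (Z z)) (hP1 Y hY)
    rw [h1]
    have h2 := hP2 (Z.symm (Y (Z z)))
    rw [Z.apply_symm_apply] at h2
    rw [h2, Z.symm_apply_apply]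
  have h1 := hM Y1 hc Q.vac Q.vac
  have h2 : Y1 ((Q.vac : D) : Completion D) = Z.symm (Y (om Q)) := by
    rw [eY]
    exact congrArg (fun z => Z.symm (Y z)) hZ0
  rw [h2, eY] at h1
  have h3 : ⟪Z ((X1 Q.vac : D) : Completion D), Y (om Q)⟫_ℂ =
      ⟪((X1 Q.vac : D) : Completion D), Z.symm (Y (om Q))⟫_ℂ := by
    rw [← Z.inner_map_map ((X1 Q.vac : D) : Completion D), Z.apply_symm_apply]
  have h4 : ⟪((Q.vac : D) : Completion D), Z.symm (Y (Z ((X Q.vac : D) : Completion D)))⟫_ℂ =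
      ⟪star Y (om Q), Z ((X Q.vac : D) : Completion D)⟫_ℂ := by
    rw [← Z.inner_map_map, Z.apply_symm_apply, ContinuousLinearMap.star_eq_adjoint,
      ContinuousLinearMap.adjoint_inner_left]
    exact congrArg (fun z => ⟪z, Y (Z ((X Q.vac : D) : Completion D))⟫_ℂ) hZ0
  rw [h3, h1, h4]

/-- **the one-field vectors** -/
theorem one_f (R : Rep Q A) {M N : VonNeumannAlgebra (Completion D)} (E : ModData M (om Q))
    (hc : ∀ t, ∀ X ∈ M, ∃ Y ∈ M, ∀ z, Y (dV Q t z) = dV Q t (X z))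
    {Z : Completion D ≃ₗᵢ[ℂ] Completion D} (hZ0 : Z (om Q) = om Q)
    (hZ : ∀ X ∈ N, ∃ Y ∈ M.commutant, ∀ z, Y (Z z) = Z (X z))
    {X X' X1 X1' : D → D} (hX : ∀ v w, inner ℂ (X v) w = inner ℂ v (X' w)) (hA : Aff M X)
    (hX1 : ∀ v w, inner ℂ (X1 v) w = inner ℂ v (X1' w)) (hA1 : Aff N X1)
    {η ζ ζ' : ℂ} (hη : ‖η‖ = 1) (hζ : ‖ζ‖ = 1) (hζ' : ‖ζ'‖ = 1)
    (h1 : Z ((X1 Q.vac : D) : Completion D) = ζ • ((X1 Q.vac : D) : Completion D))
    (h2 : Z ((X1' Q.vac : D) : Completion D) = ζ' • ((X1' Q.vac : D) : Completion D))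
    (k1 : H23.Ct (dV Q) ((X Q.vac : D) : Completion D) (η • ((X1 Q.vac : D) : Completion D)))
    (k2 : H23.Ct (fun t => dV Q (-t)) ((X1' Q.vac : D) : Completion D)
      (conj η • ((X' Q.vac : D) : Completion D))) (t : ℝ) :
    E.U t ((X Q.vac : D) : Completion D) = ((dD Q t (X Q.vac) : D) : Completion D) := by
  have hU : UStmt Q A := ublock R
  have nc : ∀ {c : ℂ}, ‖c‖ = 1 → c * conj c = 1 := fun {c} hc => by
    rw [Complex.mul_conj, Complex.normSq_eq_norm_sq, hc]; norm_num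
  -- modular theory
  have m1 : ∀ F G : ℝ →ᵇ ℂ, (∀ h : ℝ, F h = Real.exp (h / 2) * G h) →
      E.Th G (E.J ((X Q.vac : D) : Completion D)) = E.Th F ((X' Q.vac : D) : Completion D) := by
    intro F G hFG
    have hX' : ∀ v w, inner ℂ (X' v) w = inner ℂ v (X w) := fun v w => by
      rw [← inner_conj_symm, ← hX w v, inner_conj_symm]
    have hA' : Aff M X' := by
      obtain ⟨X2, a1, a2⟩ := hA
      have e : X2 = X' := by
        funext w
        refine ext_inner_left ℂ fun v => ?_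
        rw [← a1, ← hX]
      subst e
      refine ⟨X, hX', fun Y hY v w => ?_⟩
      have hs : star Y ∈ M.commutant := star_mem hY
      have h3 := a2 (star Y) hs w v
      rw [ContinuousLinearMap.star_eq_adjoint, ContinuousLinearMap.adjoint_inner_right,
        ContinuousLinearMap.adjoint_inner_right] at h3
      rw [← inner_conj_symm, ← h3, inner_conj_symm]
    exact T.mAff (Ω := Q.vac) E hX' hA' F G hFG
  have m2 : ∀ F G : ℝ →ᵇ ℂ, (∀ h : ℝ, F h = Real.exp (-(h / 2)) * G h) →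
      E.Th G (E.J ((X1' Q.vac : D) : Completion D)) =
        E.Th F ((ζ * ζ') • ((X1 Q.vac : D) : Completion D)) := by
    intro F G hFG
    have h3 := T.aff_kms' E (tw hZ0 hZ hX1 hA1) F G hFG
    rw [h1, h2, LinearIsometryEquiv.map_smulₛₗ, map_smul, map_smul] at h3
    have h4 : (ζ' * conj ζ') • E.Th G (E.J ((X1' Q.vac : D) : Completion D)) =
        (ζ' * ζ) • E.Th F ((X1 Q.vac : D) : Completion D) := by
      rw [mul_smul, mul_smul, ← h3]
    rw [nc hζ', one_smul] at h4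
    rw [h4, map_smul, mul_comm]
  have k1' : H23.Ct (dV Q) ((X Q.vac : D) : Completion D)
      ((η * conj (ζ * ζ')) • ((ζ * ζ') • ((X1 Q.vac : D) : Completion D))) := by
    have e : (η * conj (ζ * ζ')) * (ζ * ζ') = η := by
      rw [map_mul]
      linear_combination (η * (ζ' * conj ζ')) * nc hζ + η * nc hζ'
    rw [smul_smul, e]
    exact k1
  have key := H732.Lc.sblockP E ablock (dV Q) (dV_zero hU) (fun F t z => (dV_nat hU E hc t).1 F z)
    (fun t z => (dV_nat hU E hc t).2 z) (fun t c z => dV_smul hU t c z)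
    (k₁ := η * conj (ζ * ζ')) (k₂ := conj η)
    (by rw [norm_mul, RCLike.norm_conj, norm_mul, hη, hζ, hζ']; norm_num)
    (by rw [RCLike.norm_conj, hη]) _ _ _ _ k1' k2 m2 m1 t
  have h7 := congrArg (dV Q t) key
  rw [ModData.U, (dV_nat hU E hc t).1, dV_right hU, dV_coe hU] at h7
  exact h7

/-! ### all vectors -/

lemma isOpen_bk : IsOpen Bk := by
  have h1 : IsOpen {z : V | 0 < GF.mdot z z} := isOpen_lt continuous_const HM.H584.cont_sq
  have h2 : IsOpen {z : V | z GF.o < 0} := isOpen_lt (continuous_apply _) continuous_const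
  exact h1.inter h2

lemma bk_ne : Bk.Nonempty := by
  refine ⟨fun m => if m = 0 then -1 else 0, ?_, ?_⟩
  · rw [Reg1.md]
    simp
  · show (if (GF.o : Ix) = 0 then (-1 : ℝ) else 0) < 0
    simp [GF.o]

lemma fc_ne : Fc.Nonempty := by
  refine ⟨fun m => if m = 0 then 1 else 0, ?_, ?_⟩
  · rw [Reg1.md]
    simp
  · show 0 < (if (GF.o : Ix) = 0 then (1 : ℝ) else 0)
    simp [GF.o]

lemma rf_bk {f : Fn} (hf : In Fc f) : In Bk (rf f) := by
  have e : rf f = f ∘ (Homeomorph.neg V) := rfl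
  obtain ⟨⟨g, hg⟩, h2, h3⟩ := hf
  refine ⟨?_, ?_, ?_⟩
  · refine ⟨SchwartzMap.compCLMOfContinuousLinearEquiv ℂ (ContinuousLinearEquiv.neg ℝ) g, ?_⟩
    rw [← hg]
    rfl
  · rw [e]
    exact h2.comp_homeomorph _
  · rw [e, tsupport_comp_eq_preimage]
    intro x hx
    have h4 : -x ∈ Fc := h3 hx
    obtain ⟨h5, h6⟩ := h4
    refine ⟨?_, ?_⟩
    · rw [Reg1.md] at h5 ⊢
      simpa using h5
    · have h7 : 0 < -(x GF.o) := h6
      linarith

lemma in_bar {O : Set V} {f : Fn} (hf : In O f) : In O (GF.bar f) := by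
  refine ⟨T.test_bar hf.1, ?_, ?_⟩
  · unfold HasCompactSupport
    rw [H246.tsupport_bar]
    exact hf.2.1
  · rw [H246.tsupport_bar]
    exact hf.2.2

/-- separating vacuum, from the twisted commutant -/
theorem sepF (N : LNm Q A 𝒜) {Z : Completion D ≃ₗᵢ[ℂ] Completion D} (hZ0 : Z (om Q) = om Q)
    (hZ : ∀ X ∈ 𝒜 Bk, ∃ Y ∈ (𝒜 Fc).commutant, ∀ z, Y (Z z) = Z (X z))
    (X : Completion D →L[ℂ] Completion D) (hX : X ∈ 𝒜 Fc) (h0 : X (om Q) = 0) : X = 0 := by
  have hd := N.cyc isOpen_bk bk_ne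
  have key : ∀ z, X (Z z) = 0 := by
    intro z
    have hcl : IsClosed {z : Completion D | X (Z z) = 0} :=
      isClosed_eq (X.continuous.comp Z.continuous) continuous_const
    refine closure_minimal ?_ hcl (hd z)
    rintro _ ⟨P, hP, rfl⟩
    obtain ⟨P1, hP1, hP2⟩ := hZ P hP
    rw [VonNeumannAlgebra.mem_commutant_iff] at hP1
    have h3 : X (P1 (om Q)) = P1 (X (om Q)) :=
      congrArg (fun T : Completion D →L[ℂ] Completion D => T (om Q)) (hP1 X hX)
    change X (Z (P (om Q))) = 0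
    rw [← hP2, hZ0, h3, h0, map_zero]
  ext z
  have h := key (Z.symm z)
  rw [Z.apply_symm_apply] at h
  exact h

/-- **the modular unitaries of the forward light cone, from the one-field vectors of a class of
fields** -/
theorem mod_cls (R : Rep Q A) {M : VonNeumannAlgebra (Completion D)} (E : ModData M (om Q))
    (hc : ∀ t, ∀ X ∈ M, ∃ Y ∈ M, ∀ z, Y (dV Q t z) = dV Q t (X z)) (F : Fld D → Prop)
    (h1 : ∀ B, F B → Q.fld B)
    (h2 : ∀ B, F B → ∃ B', F B' ∧ ∀ f v w, GF.IsTest f →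
      inner ℂ (B f v) w = inner ℂ v (B' (GF.bar f) w))
    (h3 : ∀ S : Submodule ℂ D, Q.vac ∈ S →
      (∀ B f v, F B → GF.IsTest f → v ∈ S → B f v ∈ S) → Dense (S : Set D))
    (hA : ∀ B f, F B → In Fc f → Aff M (B f))
    (hS : ∀ B f (t : ℝ), F B → In Fc f → E.U t ((B f Q.vac : D) : Completion D) =
      ((dD Q t (B f Q.vac) : D) : Completion D)) (t : ℝ) (z : Completion D) :
    E.U t z = dV Q t z := by
  have hU : UStmt Q A := ublock R
  obtain ⟨W, hW⟩ := dV_lin hU t
  have hWs : ∀ z, W.symm z = dV Q (-t) z := by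
    intro z
    apply W.injective
    rw [W.apply_symm_apply, hW, dV_right hU]
  set Wc : Completion D →L[ℂ] Completion D := W.toContinuousLinearEquiv.toContinuousLinearMap
    with hWc
  set Ws : Completion D →L[ℂ] Completion D := W.symm.toContinuousLinearEquiv.toContinuousLinearMap
    with hWsd
  have eWc : ∀ z, Wc z = W z := fun z => rfl
  have eWs : ∀ z, Ws z = W.symm z := fun z => rfl
  set Y0 : Completion D →L[ℂ] Completion D := Ws * E.U t with hZd
  have eZ : ∀ z, Y0 z = W.symm (E.U t z) := fun z => rfl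
  have hcom : ∀ Y ∈ M.commutant, Wc * Y * Ws ∈ M.commutant := by
    intro Y hY
    rw [VonNeumannAlgebra.mem_commutant_iff] at hY ⊢
    intro X hX
    obtain ⟨X1, hX1, e1⟩ := hc (-t) X hX
    refine ContinuousLinearMap.ext fun z => ?_
    show X (W (Y (W.symm z))) = W (Y (W.symm (X z)))
    have e2 : ∀ z, X (W z) = W (X1 z) := by
      intro z
      have := e1 (W z)
      rw [← hWs, W.symm_apply_apply, ← hWs] at this
      rw [this, W.apply_symm_apply]
    have e3 : X1 (W.symm z) = W.symm (X z) := by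
      apply W.injective
      rw [← e2, W.apply_symm_apply, W.apply_symm_apply]
    have e4 : X1 (Y (W.symm z)) = Y (X1 (W.symm z)) :=
      congrArg (fun T : Completion D →L[ℂ] Completion D => T (W.symm z)) (hY X1 hX1)
    rw [e2, e4, e3]
  have hZZ : ∀ z w', (⟪Y0 z, Y0 w'⟫_ℂ : ℂ) = ⟪z, w'⟫_ℂ := by
    intro z w'
    rw [eZ, eZ, W.symm.inner_map_map, E.inner_U_U]
  have hvac : Y0 ((Q.vac : D) : Completion D) = ((Q.vac : D) : Completion D) := by
    rw [eZ]
    have e1 : E.U t ((Q.vac : D) : Completion D) = ((Q.vac : D) : Completion D) := E.U_xi t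
    rw [e1]
    apply W.injective
    rw [W.apply_symm_apply, hW]
    exact (dV_vac hU t).symm
  have fix : ∀ u : D, E.U t (u : Completion D) = ((dD Q t u : D) : Completion D) →
      Y0 (u : Completion D) = (u : Completion D) := by
    intro u h
    rw [eZ, h, ← dV_coe hU, ← hW, W.symm_apply_apply]
  have hmain := rs_fixF Q F h1 h2 h3 Y0 hvac Lc.isOpen_fc fc_ne (fun B f v hB hf hv => by
    obtain ⟨B', hB', hadj⟩ := h2 B hB
    refine prod_fix M Q.vac Y0 hZZ ?_ hvac E.cyc' (B f) (B' (GF.bar f))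
      (fun v' w' => hadj f v' w' hf.1) (hA B f hB hf) (fix _ (hS B' _ t hB' (in_bar hf))) v hv
    intro Y hY
    refine ⟨E.sg (-t) (Wc * Y * Ws), E.sg_mem_commutant (hcom Y hY) (-t), fun z => ?_⟩
    rw [eZ, E.sg_apply, neg_neg, E.U_apply_neg]
    show W.symm (W (Y (W.symm (E.U t z)))) = _
    rw [W.symm_apply_apply, eZ]) z
  rw [eZ] at hmain
  rw [← hW, ← hmain, W.apply_symm_apply, hmain]

/-- **Light cones: locality up to a unitary operator implies that the dilations are the modular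
unitaries of the forward light cone.** -/
theorem lc_z (hO : L.OStmt Q A) (N : LNm Q A 𝒜) (hz : HuyZ Q 𝒜) :
    ∃ J, IsMod (𝒜 Fc) (om Q) (fun t z => dV Q t z) J := by
  obtain ⟨Z, hZ0, hZ, hG⟩ := hz
  have R : Rep Q A := N.toRep
  obtain ⟨E⟩ : Nonempty (ModData (𝒜 Fc) (om Q)) :=
    exists_modData _ _ (H732G.norm_om Q) (N.cyc Lc.isOpen_fc fc_ne) (sepF N hZ0 hZ)
  have hc : ∀ t, ∀ X ∈ 𝒜 Fc, ∃ Y ∈ 𝒜 Fc, ∀ z, Y (dV Q t z) = dV Q t (X z) := fun t =>
    (N.dilF (Real.exp_pos _)).1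
  have key := mod_cls R E hc (ZF Q Z) (fun B hB => by
      obtain ⟨B', d, h1, -⟩ := hB
      exact h1.fld) (fun B hB => by
      obtain ⟨B', d, h1, h2, h3, h4, h5⟩ := hB
      refine ⟨B', ⟨B, d, h2, h1, h4, h3, fun f v w hf => ?_⟩, h5⟩
      have h6 := h5 (GF.bar f) w v (T.test_bar hf)
      rw [T.bar_bar'] at h6
      rw [← inner_conj_symm, ← h6, inner_conj_symm]) hG (fun B f hB hf => by
      obtain ⟨B', d, h1, -⟩ := hB
      exact N.fld _ _ _ h1.fld hf) (fun B f t hB hf => by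
      obtain ⟨B', d, h1, h2, ⟨ζ, hζ, h3⟩, ⟨ζ', hζ', h4⟩, h5⟩ := hB
      have hb : In Bk (rf f) := rf_bk hf
      have hb' : In Bk (GF.bar (rf f)) := in_bar hb
      obtain ⟨G, g1, g2, g3, g4⟩ := (hO R d B f h1).1 hf
      obtain ⟨G', g1', g2', g3', g4'⟩ := (hO R d B' (GF.bar (rf f)) h2).2 hb'
      have hU : UStmt Q A := ublock R
      have er : rf (GF.bar (rf f)) = GF.bar f := by
        funext x
        simp [rf, GF.bar]
      have ec : conj (Complex.exp (Complex.I * Real.pi * d)) =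
          Complex.exp (-(Complex.I * Real.pi * d)) := by
        rw [← Complex.exp_conj]
        congr 1
        simp
      refine one_f R E hc hZ0 hZ (X' := B' (GF.bar f)) (X1 := B (rf f))
        (X1' := B' (GF.bar (rf f))) (η := Complex.exp (Complex.I * Real.pi * d))
        (ζ := ζ) (ζ' := ζ') (fun v w => h5 f v w hf.1) (N.fld _ _ _ h1.fld hf)
        (fun v w => h5 _ v w hb.1) (N.fld _ _ _ h1.fld hb) ?_ hζ hζ' (h3 _ hb.1) (h4 _ hb'.1)
        (T.ct_of g1 g2 g3 fun t => ?_) (T.ct_of g1' g2' g3' fun t => ?_) t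
      · rw [Complex.norm_exp]
        simp
      · obtain ⟨a1, a2⟩ := g4 t
        refine ⟨by rw [a1, dV_coe hU], ?_⟩
        rw [a2, ← dV_coe hU, Completion.coe_smul]
      · obtain ⟨a1, a2⟩ := g4' t
        refine ⟨by rw [a1, dV_coe hU], ?_⟩
        rw [a2, er, ← dV_coe hU, Completion.coe_smul, ec])
  refine ⟨fun x => E.J x, ?_⟩
  have h := isMod E
  have e : (fun t z => dV Q t z) = fun (t : ℝ) z => E.U t z := by
    funext t z
    exact (key t z).symm
  rw [e]
  exact h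

end Vale.Agent.P352.BW.H210

end
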